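import Vale.Agent.P090.Main

namespace Vale.Agent.Results.P090.Counterexample

open Vale.Agent.P090

/-- There is a countable uniformly discrete pointed metric space whose Lipschitz-free space
fails the bounded approximation property. -/
theorem result : ∃ (M : Type) (_ : MetricSpace M) (o : M),
    Countable M ∧ UniformlyDiscrete M ∧ ¬ HasBAP (FreeSpace o) :=
  Vale.Agent.P090.main

end Vale.Agent.Results.P090.Counterexample
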